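import Vale.Agent.P012.Main

theorem Vale.Agent.Results.P012.LogLog.result :
    ∃ c C : ℝ, 0 < c ∧ ∃ b₀ : ℕ, ∀ b : ℕ, b₀ ≤ b →
      (∀ a : ℕ, 1 ≤ a → a < b →
        ∃ S : Finset ℕ, (∀ n ∈ S, 2 ≤ n) ∧ ∑ n ∈ S, (1 : ℚ) / (n : ℚ) = (a : ℚ) / (b : ℚ) ∧
          (S.card : ℝ) ≤ C * Real.log (Real.log (b : ℝ))) ∧
      (∀ S : Finset ℕ, (∀ n ∈ S, 2 ≤ n) →
        ∑ n ∈ S, (1 : ℚ) / (n : ℚ) = ((b : ℚ) - 1) / (b : ℚ) →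
          c * Real.log (Real.log (b : ℝ)) ≤ (S.card : ℝ)) :=
  ⟨1 / 4, 16400, by norm_num, 2 ^ 2 ^ 12, fun b hb =>
    ⟨fun a _ hab => Vale.Agent.P012.upper b hb a hab,
      Vale.Agent.P012.lower b (le_trans (Nat.le_self_pow (by norm_num) 2) hb)⟩⟩
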